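import Mathlib

/-!
# P095: bounded functions of finite sets are nearly constant on some large set
-/

namespace Vale.Agent.P095.Equiv.Core

open Filter Topology

/-- Iterated limits along `U`. -/
noncomputable def iterLim (U : Ultrafilter ℕ) (u : Finset ℕ → ℂ) : ℕ → Finset ℕ → ℂ
  | 0, A => u A
  | k + 1, A => limUnder (U : Filter ℕ) fun n => iterLim U u k (insert n A)

variable (U : Ultrafilter ℕ) {u : Finset ℕ → ℂ} {C : ℝ}

theorem iterLim_spec (hu : ∀ A, ‖u A‖ ≤ C) (k : ℕ) (A : Finset ℕ) :
    Tendsto (fun n => iterLim U u k (insert n A)) (U : Filter ℕ) (𝓝 (iterLim U u (k + 1) A)) ∧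
      ‖iterLim U u k A‖ ≤ C := by
  induction k generalizing A with
  | zero =>
    refine ⟨?_, hu A⟩
    refine tendsto_nhds_limUnder ?_
    obtain ⟨c, -, hc⟩ := (isCompact_closedBall (0 : ℂ) C).ultrafilter_le_nhds
      (U.map fun n => iterLim U u 0 (insert n A)) (by
        rw [le_principal_iff, Ultrafilter.coe_map]
        exact Filter.mem_map.2 (Eventually.of_forall fun n => mem_closedBall_zero_iff.2 (hu _)))
    exact ⟨c, hc⟩
  | succ k ih =>
    have hb : ∀ A, ‖iterLim U u (k + 1) A‖ ≤ C := fun A =>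
      le_of_tendsto (ih A).1.norm (Eventually.of_forall fun n => (ih _).2)
    refine ⟨tendsto_nhds_limUnder ?_, hb A⟩
    obtain ⟨c, -, hc⟩ := (isCompact_closedBall (0 : ℂ) C).ultrafilter_le_nhds
      (U.map fun n => iterLim U u (k + 1) (insert n A)) (by
        rw [le_principal_iff, Ultrafilter.coe_map]
        exact Filter.mem_map.2 (Eventually.of_forall fun n => mem_closedBall_zero_iff.2 (hb _)))
    exact ⟨c, hc⟩

/-- On arbitrarily large finite sets finitely many bounded functions of sets are nearly constant. -/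
theorem exists_homogeneous {ι : Type} (hU : (U : Filter ℕ) ≤ cofinite) (T : Finset ι)
    (u : ι → Finset ℕ → ℂ) (C : ι → ℝ) (hu : ∀ i A, ‖u i A‖ ≤ C i) (r : ι → ℕ) {δ : ℝ}
    (hδ : 0 < δ) (K : ℕ) :
    ∃ L : ι → ℂ, ∃ S : Finset ℕ, S.card = K ∧
      ∀ i ∈ T, ∀ A ⊆ S, A.card = r i → ‖u i A - L i‖ < δ := by
  classical
  refine ⟨fun i => iterLim U (u i) (r i) ∅, ?_⟩
  suffices h : ∃ S : Finset ℕ, S.card = K ∧ ∀ i ∈ T, ∀ A ⊆ S, A.card ≤ r i →
      ‖iterLim U (u i) (r i - A.card) A - iterLim U (u i) (r i) ∅‖ < δ by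
    obtain ⟨S, hS, h⟩ := h
    refine ⟨S, hS, fun i hi A hA hc => ?_⟩
    have := h i hi A hA hc.le
    rw [hc, Nat.sub_self] at this
    exact this
  induction K with
  | zero =>
    refine ⟨∅, rfl, fun i _ A hA _ => ?_⟩
    rw [Finset.subset_empty.1 hA]
    simpa using hδ
  | succ K ih =>
    obtain ⟨S, hS, hgood⟩ := ih
    have hev : ∀ᶠ n in (U : Filter ℕ), n ∉ S ∧ ∀ i ∈ T, ∀ A ∈ S.powerset, A.card < r i →
        ‖iterLim U (u i) (r i - (A.card + 1)) (insert n A) - iterLim U (u i) (r i) ∅‖ < δ := by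
      have h0 : ∀ᶠ n in (U : Filter ℕ), n ∉ S := hU S.finite_toSet.compl_mem_cofinite
      refine h0.and ?_
      refine (Finset.eventually_all T).2 fun i hi => ?_
      refine (Finset.eventually_all S.powerset).2 fun A hA => ?_
      by_cases hc : A.card < r i
      · have h1 := (iterLim_spec U (hu i) (r i - (A.card + 1)) A).1
        rw [show r i - (A.card + 1) + 1 = r i - A.card by omega] at h1
        filter_upwards [(h1.sub_const _).norm.eventually
          (gt_mem_nhds (hgood i hi A (Finset.mem_powerset.1 hA) hc.le))] with n hn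
        exact fun _ => hn
      · exact Eventually.of_forall fun n h => absurd h hc
    obtain ⟨n, hn, hnew⟩ := hev.exists
    refine ⟨insert n S, by rw [Finset.card_insert_of_notMem hn, hS], fun i hi A hA hc => ?_⟩
    by_cases hnA : n ∈ A
    · have hA' : A.erase n ⊆ S := fun x hx =>
        (Finset.mem_insert.1 (hA (Finset.mem_of_mem_erase hx))).resolve_left
          (Finset.ne_of_mem_erase hx)
      have hcard : (A.erase n).card + 1 = A.card := Finset.card_erase_add_one hnA
      have := hnew i hi (A.erase n) (Finset.mem_powerset.2 hA') (by omega)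
      rwa [hcard, Finset.insert_erase hnA] at this
    · refine hgood i hi A (fun x hx => ?_) hc
      exact (Finset.mem_insert.1 (hA hx)).resolve_left fun h => hnA (h ▸ hx)

end Vale.Agent.P095.Equiv.Core
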