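import Vale.Agent.P095.Equiv.Core.Word

/-!
# P095: averages over tuples are governed by the injective ones
-/

namespace Vale.Agent.P095.Equiv.Core

open Filter Topology

/-- The proportion of tuples which are not injective. -/
noncomputable def nonInj (K r : ℕ) : ℝ :=
  1 - ((K + 1).descFactorial r : ℝ) / ((K + 1 : ℕ) : ℝ) ^ r

theorem nonInj_nonneg (K r : ℕ) : 0 ≤ nonInj K r := by
  rw [nonInj, sub_nonneg, div_le_one (by positivity)]
  exact_mod_cast Nat.descFactorial_le_pow (K + 1) r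

theorem tendsto_nonInj (r : ℕ) : Tendsto (fun K => nonInj K r) atTop (𝓝 0) := by
  have h1 : Tendsto (fun K : ℕ => (1 - (r : ℝ) * (1 / ((K : ℝ) + 1))) ^ r) atTop (𝓝 1) := by
    have := ((tendsto_one_div_add_atTop_nhds_zero_nat (𝕜 := ℝ)).const_mul (r : ℝ)).const_sub 1
    simpa using this.pow r
  have h2 : ∀ᶠ K in atTop, nonInj K r ≤ 1 - (1 - (r : ℝ) * (1 / ((K : ℝ) + 1))) ^ r := by
    filter_upwards [eventually_ge_atTop r] with K hK
    have hd : (((K + 1 + 1 - r : ℕ) : ℝ)) ^ r ≤ ((K + 1).descFactorial r : ℝ) := by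
      exact_mod_cast Nat.pow_sub_le_descFactorial (K + 1) r
    rw [Nat.cast_sub (by omega)] at hd
    push_cast at hd
    have hr : (r : ℝ) ≤ K := by exact_mod_cast hK
    have e : (1 : ℝ) - (r : ℝ) * (1 / ((K : ℝ) + 1)) = ((K : ℝ) + 1 - r) / ((K : ℝ) + 1) := by
      field_simp
    rw [nonInj, e, div_pow, Nat.cast_add, Nat.cast_one]
    gcongr
    exact (pow_le_pow_left₀ (by linarith) (by linarith) r).trans hd
  refine squeeze_zero' (Eventually.of_forall fun K => nonInj_nonneg K r) h2 ?_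
  simpa using h1.const_sub 1

/-- An average over all tuples is near the common value on the injective ones. -/
theorem norm_avg_sub_le {K r : ℕ} (z : (Fin r → Fin (K + 1)) → ℂ) (L : ℂ) {δ B : ℝ} (hδ : 0 ≤ δ)
    (_hB : 0 ≤ B) (hz : ∀ f, ‖z f - L‖ ≤ B)
    (hinj : ∀ f, Function.Injective f → ‖z f - L‖ ≤ δ) :
    ‖((((K + 1 : ℕ) : ℂ)⁻¹) ^ r) * ∑ f, z f - L‖ ≤ δ + B * nonInj K r := by
  classical
  have hc : Fintype.card (Fin r → Fin (K + 1)) = (K + 1) ^ r := by simp
  have hi : (Finset.univ.filter fun f : Fin r → Fin (K + 1) => Function.Injective f).card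
      = (K + 1).descFactorial r := by
    rw [← Fintype.card_subtype, Fintype.card_congr (Equiv.subtypeInjectiveEquivEmbedding _ _),
      Fintype.card_embedding_eq, Fintype.card_fin, Fintype.card_fin]
  have hne : (((K + 1 : ℕ) : ℂ)) ^ r ≠ 0 := pow_ne_zero _ (by exact_mod_cast K.succ_ne_zero)
  have e : ((((K + 1 : ℕ) : ℂ)⁻¹) ^ r) * ∑ f, z f - L
      = ((((K + 1 : ℕ) : ℂ)⁻¹) ^ r) * ∑ f, (z f - L) := by
    rw [Finset.sum_sub_distrib, mul_sub, Finset.sum_const, Finset.card_univ, hc, nsmul_eq_mul,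
      Nat.cast_pow, inv_pow, ← mul_assoc, inv_mul_cancel₀ hne, one_mul]
  rw [e, norm_mul, norm_pow, norm_inv, Complex.norm_natCast, inv_pow]
  rw [inv_mul_le_iff₀ (by positivity)]
  refine (norm_sum_le _ _).trans ?_
  rw [← Finset.sum_filter_add_sum_filter_not Finset.univ
    (fun f : Fin r → Fin (K + 1) => Function.Injective f)]
  have h2 : ((Finset.univ.filter fun f : Fin r → Fin (K + 1) => ¬ Function.Injective f).card : ℝ)
      = ((K + 1 : ℕ) : ℝ) ^ r * nonInj K r := by
    have := Finset.card_filter_add_card_filter_not (s := (Finset.univ : Finset (Fin r → Fin (K + 1))))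
      (fun f => Function.Injective f)
    rw [Finset.card_univ, hc, hi] at this
    rw [nonInj, mul_sub, mul_one, mul_div_cancel₀ _ (by positivity), eq_sub_iff_add_eq, add_comm]
    exact_mod_cast this
  refine (add_le_add (Finset.sum_le_card_nsmul _ _ δ fun f hf => hinj f (Finset.mem_filter.1 hf).2)
    (Finset.sum_le_card_nsmul _ _ B fun f _ => hz f)).trans ?_
  rw [nsmul_eq_mul, nsmul_eq_mul, h2, hi, mul_add]
  refine add_le_add (mul_le_mul_of_nonneg_right ?_ hδ) (le_of_eq (by ring))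
  exact_mod_cast Nat.descFactorial_le_pow (K + 1) r

end Vale.Agent.P095.Equiv.Core
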