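import Vale.Agent.P101.KR.Interfaces

/-!
# P095: second moments with equal power sums force a state to be multiplicative
-/

namespace Vale.Agent.P095.Equiv.Core

open scoped ComplexConjugate

/-- A positive unital functional. -/
structure IsState {B : Type} [CStarAlgebra B] (φ : B →ₗ[ℂ] ℂ) : Prop where
  one : φ 1 = 1
  star_eq : ∀ b, φ (star b) = conj (φ b)
  pos : ∀ b, 0 ≤ (φ (star b * b)).re
  cont : Continuous φ

variable {B : Type} [CStarAlgebra B] {φ : B →ₗ[ℂ] ℂ}

theorem IsState.sq_norm_le (h : IsState φ) (a b : B) :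
    ‖φ (star a * b)‖ ^ 2 ≤ (φ (star a * a)).re * (φ (star b * b)).re := by
  set z := φ (star a * b)
  set P := (φ (star a * a)).re
  set Q := (φ (star b * b)).re
  have key : ∀ t : ℝ, 0 ≤ P + 2 * t * ‖z‖ ^ 2 + t ^ 2 * ‖z‖ ^ 2 * Q := by
    intro t
    have hp := h.pos (a + ((t : ℂ) * conj z) • b)
    have e : φ (star (a + ((t : ℂ) * conj z) • b) * (a + ((t : ℂ) * conj z) • b)) =
        φ (star a * a) + ((t : ℂ) * conj z) * z + ((t : ℂ) * z) * conj z
          + ((t : ℂ) * z) * ((t : ℂ) * conj z) * φ (star b * b) := by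
      have hzc : φ (star b * a) = conj z := by
        rw [← h.star_eq, star_mul, star_star]
      simp only [star_add, star_smul, add_mul, mul_add, smul_mul_assoc, mul_smul_comm, map_add,
        map_smul, smul_eq_mul, hzc, Complex.star_def, map_mul, Complex.conj_ofReal,
        Complex.conj_conj]
      ring
    rw [e] at hp
    have hz : (‖z‖ ^ 2 : ℝ) = z.re * z.re + z.im * z.im := by
      rw [Complex.sq_norm, Complex.normSq_apply]
    simp only [Complex.add_re, Complex.mul_re, Complex.mul_im, Complex.ofReal_re, Complex.ofReal_im,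
      Complex.conj_re, Complex.conj_im] at hp
    rw [hz]
    linarith
  have hP : 0 ≤ P := h.pos a
  have hQ : 0 ≤ Q := h.pos b
  rcases eq_or_lt_of_le hQ with hQ0 | hQ0
  · by_contra hne
    push Not at hne
    rw [← hQ0, mul_zero] at hne
    have := key (-(P + 1) / ‖z‖ ^ 2)
    rw [← hQ0, mul_zero, add_zero, mul_assoc, div_mul_cancel₀ _ hne.ne'] at this
    linarith
  · have h1 := mul_nonneg hQ (key (-1 / Q))
    have e : Q * (P + 2 * (-1 / Q) * ‖z‖ ^ 2 + (-1 / Q) ^ 2 * ‖z‖ ^ 2 * Q) = P * Q - ‖z‖ ^ 2 := by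
      field_simp
      ring
    linarith

theorem eq_of_powerSums {P : Type} (s : Finset P) (μ ν : P → ℂ)
    (h : ∀ r, 1 ≤ r → ∑ p ∈ s, μ p ^ r = ∑ p ∈ s, ν p ^ r) {A : ℂ} (hA : A ≠ 0) {p₀ : P}
    (hp₀ : p₀ ∈ s) (hμ : μ p₀ = A) : ∃ p ∈ s, ν p = A := by
  classical
  have key : ∀ V : Finset ℂ, ∀ r, 1 ≤ r →
      ∑ p ∈ s, μ p ^ r * ∏ w ∈ V, (μ p - w) = ∑ p ∈ s, ν p ^ r * ∏ w ∈ V, (ν p - w) := by
    intro V
    induction V using Finset.induction_on with
    | empty => simpa using h
    | insert w V hw ih =>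
      intro r hr
      have e : ∀ f : P → ℂ, ∑ p ∈ s, f p ^ r * ∏ v ∈ insert w V, (f p - v) =
          ∑ p ∈ s, f p ^ (r + 1) * ∏ v ∈ V, (f p - v) -
            w * ∑ p ∈ s, f p ^ r * ∏ v ∈ V, (f p - v) := fun f => by
        rw [Finset.mul_sum, ← Finset.sum_sub_distrib]
        refine Finset.sum_congr rfl fun p _ => ?_
        rw [Finset.prod_insert hw]
        ring
      rw [e, e, ih (r + 1) (by omega), ih r hr]
  by_contra hne
  push Not at hne
  set V := (s.image μ ∪ s.image ν).erase A
  have h1 := key V 1 le_rfl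
  have hR : ∑ p ∈ s, ν p ^ 1 * ∏ w ∈ V, (ν p - w) = 0 := by
    refine Finset.sum_eq_zero fun p hp => ?_
    rw [Finset.prod_eq_zero (i := ν p) (Finset.mem_erase.2 ⟨hne p hp,
      Finset.mem_union_right _ (Finset.mem_image_of_mem ν hp)⟩) (sub_self _), mul_zero]
  have hL : ∑ p ∈ s, μ p ^ 1 * ∏ w ∈ V, (μ p - w) =
      (s.filter fun p => μ p = A).card • (A * ∏ w ∈ V, (A - w)) := by
    rw [← Finset.sum_const, Finset.sum_filter]
    refine Finset.sum_congr rfl fun p hp => ?_
    split_ifs with hpA
    · rw [hpA, pow_one]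
    · rw [Finset.prod_eq_zero (i := μ p) (Finset.mem_erase.2 ⟨hpA,
        Finset.mem_union_left _ (Finset.mem_image_of_mem μ hp)⟩) (sub_self _), mul_zero]
  rw [hL, hR, smul_eq_zero] at h1
  rcases h1 with h1 | h1
  · rw [Finset.card_eq_zero] at h1
    have : p₀ ∈ s.filter fun p => μ p = A := Finset.mem_filter.2 ⟨hp₀, hμ⟩
    rw [h1] at this
    exact absurd this (Finset.notMem_empty _)
  · rcases mul_eq_zero.1 h1 with h1 | h1
    · exact hA h1
    · obtain ⟨w, hw, hw0⟩ := Finset.prod_eq_zero_iff.1 h1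
      exact (Finset.mem_erase.1 hw).1 (sub_eq_zero.1 hw0).symm

theorem IsState.im_sa (h : IsState φ) {a : B} (ha : IsSelfAdjoint a) : (φ a).im = 0 := by
  have := h.star_eq a
  rw [ha.star_eq] at this
  exact Complex.conj_eq_iff_im.1 this.symm

/-- A self-adjoint element without variance splits off. -/
theorem IsState.mul_of_var (h : IsState φ) {a : B} (ha : IsSelfAdjoint a)
    (hv : φ (a * a) = φ a * φ a) (b : B) : φ (a * b) = φ a * φ b ∧ φ (b * a) = φ b * φ a := by
  set c := a - φ a • (1 : B)
  have hc : IsSelfAdjoint c := by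
    show star (a - φ a • (1 : B)) = _
    rw [star_sub, star_smul, star_one, ha.star_eq, Complex.star_def,
      Complex.conj_eq_iff_im.2 (h.im_sa ha)]
  have h0 : φ (star c * c) = 0 := by
    rw [hc.star_eq]
    simp only [c, sub_mul, mul_sub, smul_mul_assoc, mul_smul_comm, one_mul, mul_one, map_sub,
      map_smul, smul_eq_mul, h.one, hv]
    ring
  have hleft : ∀ x, φ (c * x) = 0 := fun x => by
    have := h.sq_norm_le c x
    rw [h0, Complex.zero_re, zero_mul, hc.star_eq] at this
    exact norm_eq_zero.1 (pow_eq_zero_iff two_ne_zero |>.1 (le_antisymm this (sq_nonneg _)))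
  have hright : φ (b * c) = 0 := by
    have := h.star_eq (c * star b)
    rw [star_mul, star_star, hc.star_eq, hleft, map_zero] at this
    exact this
  constructor
  · have := hleft b
    simp only [c, sub_mul, smul_mul_assoc, one_mul, map_sub, map_smul, smul_eq_mul, sub_eq_zero]
      at this
    exact this
  · simp only [c, mul_sub, mul_smul_comm, mul_one, map_sub, map_smul, smul_eq_mul, sub_eq_zero]
      at hright
    rw [hright]
    ring

theorem IsState.sq_re_le (h : IsState φ) {a : B} (ha : IsSelfAdjoint a) :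
    (φ a).re * (φ a).re ≤ (φ (a * a)).re := by
  have := h.sq_norm_le 1 a
  rw [star_one, one_mul, one_mul, h.one, ha.star_eq, Complex.one_re, one_mul, Complex.sq_norm,
    Complex.normSq_apply, h.im_sa ha] at this
  simpa using this

/-- Equal power sums of `φ(a_i a_j)` and `φ(a_i) φ(a_j)` kill every variance. -/
theorem IsState.var_eq_zero (h : IsState φ) {ι : Type} [DecidableEq ι] (a : ι → B)
    (ha : ∀ i, IsSelfAdjoint (a i)) (T : Finset ι)
    (hp : ∀ r, 1 ≤ r → ∑ p ∈ T ×ˢ T, φ (a p.1 * a p.2) ^ r =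
      ∑ p ∈ T ×ˢ T, (φ (a p.1) * φ (a p.2)) ^ r) :
    ∀ i ∈ T, φ (a i * a i) = φ (a i) * φ (a i) := by
  classical
  induction T using Finset.strongInduction with
  | H T ih =>
    intro i hi
    have him : ∀ k, (φ (a k * a k)).im = 0 := fun k => h.im_sa (by
      show star (a k * a k) = _
      rw [star_mul, (ha k).star_eq])
    have hreal : ∀ k, φ (a k) = ((φ (a k)).re : ℂ) := fun k =>
      Complex.ext rfl (by simpa using h.im_sa (ha k))
    have hreal2 : ∀ k, φ (a k * a k) = ((φ (a k * a k)).re : ℂ) := fun k =>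
      Complex.ext rfl (by simpa using him k)
    obtain ⟨i₀, hi₀, hmax⟩ := T.exists_max_image (fun k => (φ (a k * a k)).re) ⟨i, hi⟩
    set A := (φ (a i₀ * a i₀)).re
    rcases eq_or_ne A 0 with hA | hA
    · have h1 := h.sq_re_le (ha i)
      have h2 := hmax i hi
      rw [hA] at h2
      have h3 := mul_self_nonneg (φ (a i)).re
      rw [hreal2 i, hreal i, ← Complex.ofReal_mul, Complex.ofReal_inj]
      linarith
    · obtain ⟨p, hp', hpA⟩ := eq_of_powerSums (T ×ˢ T) (fun p => φ (a p.1 * a p.2))
        (fun p => φ (a p.1) * φ (a p.2)) hp (A := (A : ℂ)) (by simpa using hA)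
        (p₀ := (i₀, i₀)) (Finset.mk_mem_product hi₀ hi₀) (hreal2 i₀)
      obtain ⟨hk, hl⟩ := Finset.mem_product.1 hp'
      -- one of the two has no variance
      obtain ⟨k, hkT, hkv⟩ : ∃ k ∈ T, φ (a k * a k) = φ (a k) * φ (a k) := by
        rw [hreal p.1, hreal p.2, ← Complex.ofReal_mul, Complex.ofReal_inj] at hpA
        have hp1 := h.sq_re_le (ha p.1)
        have hp2 := h.sq_re_le (ha p.2)
        have hm1 := hmax p.1 hk
        have hm2 := hmax p.2 hl
        rcases le_total ((φ (a p.1)).re * (φ (a p.1)).re) ((φ (a p.2)).re * (φ (a p.2)).re) with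
          hle | hle
        · refine ⟨p.2, hl, ?_⟩
          rw [hreal2, hreal p.2, ← Complex.ofReal_mul, Complex.ofReal_inj]
          nlinarith [sq_nonneg ((φ (a p.1)).re - (φ (a p.2)).re)]
        · refine ⟨p.1, hk, ?_⟩
          rw [hreal2, hreal p.1, ← Complex.ofReal_mul, Complex.ofReal_inj]
          nlinarith [sq_nonneg ((φ (a p.1)).re - (φ (a p.2)).re)]
      by_cases hik : i = k
      · rw [hik]; exact hkv
      refine ih (T.erase k) (Finset.erase_ssubset hkT) (fun r hr => ?_) i
        (Finset.mem_erase.2 ⟨hik, hi⟩)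
      have hz : ∀ p ∈ T ×ˢ T, p ∉ T.erase k ×ˢ T.erase k →
          φ (a p.1 * a p.2) ^ r - (φ (a p.1) * φ (a p.2)) ^ r = 0 := by
        intro p hp hnp
        obtain ⟨hpa, hpb⟩ := Finset.mem_product.1 hp
        have : p.1 = k ∨ p.2 = k := by
          by_contra hc
          push Not at hc
          exact hnp (Finset.mk_mem_product (Finset.mem_erase.2 ⟨hc.1, hpa⟩)
            (Finset.mem_erase.2 ⟨hc.2, hpb⟩))
        rcases this with hk' | hk'
        · rw [hk', (h.mul_of_var (ha k) hkv _).1, sub_self]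
        · rw [hk', (h.mul_of_var (ha k) hkv _).2, sub_self]
      have := hp r hr
      rw [← sub_eq_zero, ← Finset.sum_sub_distrib] at this
      rw [← sub_eq_zero, ← Finset.sum_sub_distrib,
        Finset.sum_subset (Finset.product_subset_product (Finset.erase_subset _ _)
          (Finset.erase_subset _ _)) hz]
      exact this

/-- Without variance on the self-adjoint elements there is a character. -/
theorem IsState.exists_character (h : IsState φ)
    (hv : ∀ a, IsSelfAdjoint a → φ (a * a) = φ a * φ a) : Nonempty (B →⋆ₐ[ℂ] ℂ) := by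
  have hmul : ∀ x y, φ (x * y) = φ x * φ y := fun x y => by
    have h1 := h.mul_of_var (realPart x).2 (hv _ (realPart x).2) y
    have h2 := h.mul_of_var (imaginaryPart x).2 (hv _ (imaginaryPart x).2) y
    conv_lhs => rw [← realPart_add_I_smul_imaginaryPart x]
    conv_rhs => rw [← realPart_add_I_smul_imaginaryPart x]
    simp only [add_mul, smul_mul_assoc, map_add, map_smul, smul_eq_mul, h1.1, h2.1]
    ring
  exact ⟨{ toFun := φ
           map_one' := h.one
           map_mul' := hmul
           map_zero' := map_zero φ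
           map_add' := map_add φ
           commutes' := fun r => by
             rw [Algebra.algebraMap_eq_smul_one, map_smul, h.one]
             simp
           map_star' := fun x => h.star_eq x }⟩

end Vale.Agent.P095.Equiv.Core
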