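import Vale.Agent.P095.Equiv.Core.Word
import Vale.Agent.P095.Equiv.Core.Pointwise
import Vale.Agent.P101.KR.Omega

/-!
# P095: means over commuting copies form a commutative algebra of states
-/

namespace Vale.Agent.P095.Equiv.Core

open Filter Topology BoundedContinuousFunction Vale.Agent.P101.KR
open scoped ComplexOrder CStarAlgebra

noncomputable section

variable {B F : Type} [CStarAlgebra B] [CStarAlgebra F] (κ : ℕ → (B →⋆ₐ[ℂ] F))
  (e : (K : ℕ) → Fin (K + 1) → ℕ)

/-- The mean over the selected positions at stage `K`. -/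
def mean (K : ℕ) : B →ₗ[ℂ] F :=
  (((K + 1 : ℕ) : ℂ)⁻¹) • ∑ k, (κ (e K k)).toAlgHom.toLinearMap

theorem mean_apply (K : ℕ) (b : B) :
    mean κ e K b = (((K + 1 : ℕ) : ℂ)⁻¹) • ∑ k, κ (e K k) b := by
  simp [mean, LinearMap.sum_apply]

theorem mean_star (K : ℕ) (b : B) : mean κ e K (star b) = star (mean κ e K b) := by
  simp [mean_apply, star_smul, star_sum, map_star]

theorem mean_one (K : ℕ) : mean κ e K 1 = 1 := by
  rw [mean_apply]
  simp only [map_one, Finset.sum_const, Finset.card_univ, Fintype.card_fin]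
  rw [← Nat.cast_smul_eq_nsmul ℂ, smul_smul,
    inv_mul_cancel₀ (by exact_mod_cast K.succ_ne_zero : ((K + 1 : ℕ) : ℂ) ≠ 0), one_smul]

theorem norm_mean_le (K : ℕ) (b : B) : ‖mean κ e K b‖ ≤ ‖b‖ := by
  rw [mean_apply, norm_smul, norm_inv, Complex.norm_natCast, inv_mul_le_iff₀ (by positivity)]
  refine (norm_sum_le _ _).trans
    ((Finset.sum_le_card_nsmul _ _ ‖b‖ fun k _ => NonUnitalStarAlgHom.norm_apply_le _ _).trans ?_)
  simp

/-- The means, as a sequence. -/
def meanSeq (b : B) : ℕ →ᵇ F :=
  BoundedContinuousFunction.ofNormedAddCommGroup (fun K => mean κ e K b)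
    continuous_of_discreteTopology ‖b‖ fun K => norm_mean_le κ e K b

/-- The ultrafilter of the stages. -/
abbrev stages : Ultrafilter ℕ := Filter.hyperfilter ℕ

theorem stages_le : (stages : Filter ℕ) ≤ atTop :=
  (Filter.hyperfilter_le_cofinite).trans Nat.cofinite_eq_atTop.le

/-- The limit mean. -/
def mω : B →ₗ[ℂ] AOmega F stages where
  toFun b := cls stages (meanSeq κ e b)
  map_add' a b := by
    rw [← map_add]
    congr 1
    ext K
    exact map_add (mean κ e K) a b
  map_smul' c b := by
    rw [RingHom.id_apply, ← map_smul]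
    congr 1
    ext K
    exact map_smul (mean κ e K) c b

theorem mω_star (b : B) : mω κ e (star b) = star (mω κ e b) := by
  show cls stages _ = star (cls stages _)
  rw [← map_star]
  congr 1
  ext K
  exact mean_star κ e K b

theorem mω_one : mω κ e 1 = 1 := by
  show cls stages _ = 1
  rw [← map_one (cls stages)]
  congr 1
  ext K
  exact mean_one κ e K

theorem norm_mω_le (b : B) : ‖mω κ e b‖ ≤ ‖b‖ :=
  le_of_tendsto' (tendsto_omegaNorm stages (meanSeq κ e b)) fun K => norm_mean_le κ e K b

theorem exists_mω_star_mul (b : B) : ∃ y, mω κ e (star b * b) = star y * y := by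
  classical
  let _ : PartialOrder F := CStarAlgebra.spectralOrder F
  have : StarOrderedRing F := CStarAlgebra.spectralOrderedRing F
  have hpos : ∀ K, 0 ≤ mean κ e K (star b * b) := fun K => by
    rw [mean_apply]
    have hc : (0 : ℝ) ≤ ((K + 1 : ℕ) : ℝ)⁻¹ := by positivity
    rw [show (((K + 1 : ℕ) : ℂ)⁻¹) = (((((K + 1 : ℕ) : ℝ))⁻¹ : ℝ) : ℂ) by push_cast; rfl,
      Complex.coe_smul]
    refine smul_nonneg hc (Finset.sum_nonneg fun k _ => ?_)
    rw [map_mul, map_star]
    exact star_mul_self_nonneg _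
  have hs : ∀ K, ‖CFC.sqrt (mean κ e K (star b * b))‖ ≤ ‖b‖ := fun K => by
    set y := CFC.sqrt (mean κ e K (star b * b))
    have h1 : y * y = mean κ e K (star b * b) := CFC.sqrt_mul_sqrt_self _ (hpos K)
    have h2 : star y = y := (IsSelfAdjoint.of_nonneg (CFC.sqrt_nonneg _)).star_eq
    have h3 := CStarRing.norm_star_mul_self (x := y)
    rw [h2, h1] at h3
    have h4 := norm_mean_le κ e K (star b * b)
    rw [CStarRing.norm_star_mul_self, h3] at h4
    exact (mul_self_le_mul_self_iff (norm_nonneg _) (norm_nonneg _)).2 h4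
  refine ⟨cls stages (BoundedContinuousFunction.ofNormedAddCommGroup
    (fun K => CFC.sqrt (mean κ e K (star b * b))) continuous_of_discreteTopology ‖b‖ hs), ?_⟩
  show cls stages _ = _
  rw [← map_star, ← map_mul]
  congr 1
  ext K
  show mean κ e K (star b * b) =
    star (CFC.sqrt (mean κ e K (star b * b))) * CFC.sqrt (mean κ e K (star b * b))
  rw [(IsSelfAdjoint.of_nonneg (CFC.sqrt_nonneg (mean κ e K (star b * b)))).star_eq,
    CFC.sqrt_mul_sqrt_self _ (hpos K)]

variable (hκ : ∀ i j, i ≠ j → ∀ a b, Commute (κ i a) (κ j b))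
  (he : ∀ K, Function.Injective (e K))
include hκ he

theorem norm_mean_commutator_le (K : ℕ) (a b : B) :
    ‖mean κ e K a * mean κ e K b - mean κ e K b * mean κ e K a‖ ≤
      2 * ‖a‖ * ‖b‖ * (1 / ((K : ℝ) + 1)) := by
  set c : ℂ := ((K + 1 : ℕ) : ℂ)⁻¹
  have e1 : mean κ e K a * mean κ e K b - mean κ e K b * mean κ e K a
      = (c * c) • ∑ k, (κ (e K k) a * κ (e K k) b - κ (e K k) b * κ (e K k) a) := by
    rw [mean_apply, mean_apply, smul_mul_smul_comm, smul_mul_smul_comm, ← smul_sub]
    congr 1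
    rw [Finset.sum_mul_sum, Finset.sum_mul_sum,
      Finset.sum_comm (f := fun l k => κ (e K l) b * κ (e K k) a), ← Finset.sum_sub_distrib]
    refine Finset.sum_congr rfl fun k _ => ?_
    rw [← Finset.sum_sub_distrib, Finset.sum_eq_single k]
    · intro l _ hl
      first
        | rw [(hκ _ _ (fun h => hl (he K h)) a b).eq, sub_self]
        | rw [(hκ _ _ (fun h => hl (he K h).symm) a b).eq, sub_self]
    · simp
  rw [e1, norm_smul, norm_mul, norm_inv, Complex.norm_natCast]
  refine (mul_le_mul_of_nonneg_left ((norm_sum_le _ _).trans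
    (Finset.sum_le_card_nsmul _ _ (2 * ‖a‖ * ‖b‖) fun k _ => ?_)) (by positivity)).trans ?_
  · refine (norm_sub_le _ _).trans ?_
    have h1 := norm_mul_le (κ (e K k) a) (κ (e K k) b)
    have h2 := norm_mul_le (κ (e K k) b) (κ (e K k) a)
    have ha := NonUnitalStarAlgHom.norm_apply_le (κ (e K k)) a
    have hb := NonUnitalStarAlgHom.norm_apply_le (κ (e K k)) b
    nlinarith [norm_nonneg (κ (e K k) a), norm_nonneg (κ (e K k) b), norm_nonneg a, norm_nonneg b]
  · rw [Finset.card_univ, Fintype.card_fin, nsmul_eq_mul]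
    push_cast
    refine le_of_eq ?_
    field_simp

theorem commute_mω (a b : B) : Commute (mω κ e a) (mω κ e b) := by
  show cls stages _ * cls stages _ = cls stages _ * cls stages _
  rw [← map_mul, ← map_mul, cls_eq_iff]
  refine squeeze_zero' (Eventually.of_forall fun _ => norm_nonneg _)
    (Eventually.of_forall fun K => norm_mean_commutator_le κ e hκ he K a b) ?_
  simpa using ((tendsto_one_div_add_atTop_nhds_zero_nat (𝕜 := ℝ)).const_mul
    (2 * ‖a‖ * ‖b‖)).mono_left stages_le

end

section algebra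

variable {B F : Type} [CStarAlgebra B] [CStarAlgebra F] (κ : ℕ → (B →⋆ₐ[ℂ] F))
  (e : (K : ℕ) → Fin (K + 1) → ℕ)

/-- The algebra of the limit means. -/
abbrev MeanAlg : Type := ↥(Cl (Set.range (mω κ e)))

variable {κ e} (hκ : ∀ i j, i ≠ j → ∀ a b, Commute (κ i a) (κ j b))
  (he : ∀ K, Function.Injective (e K))

/-- An element of the algebra of means. -/
noncomputable def toAlg : B →ₗ[ℂ] MeanAlg κ e where
  toFun b := ⟨mω κ e b,
    StarSubalgebra.le_topologicalClosure _ (StarAlgebra.subset_adjoin ℂ _ ⟨b, rfl⟩)⟩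
  map_add' a b := Subtype.ext (map_add (mω κ e) a b)
  map_smul' c b := Subtype.ext (map_smul (mω κ e) c b)

include hκ he in
theorem meanAlg_comm (x y : MeanAlg κ e) : x * y = y * x := by
  set R : Set (AOmega F stages) := Set.range (mω κ e)
  have hle : ∀ T : Set (AOmega F stages), (∀ z ∈ R, ∀ t ∈ T, t * z = z * t ∧ star t * z = z * star t) →
      Cl R ≤ StarSubalgebra.centralizer ℂ T := by
    intro T hT
    refine StarSubalgebra.topologicalClosure_minimal (StarAlgebra.adjoin_le fun z hz => ?_) ?_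
    · rw [SetLike.mem_coe, StarSubalgebra.mem_centralizer_iff]
      exact fun t ht => hT z hz t ht
    · show IsClosed {z | z ∈ StarSubalgebra.centralizer ℂ T}
      simp only [StarSubalgebra.mem_centralizer_iff, Set.ofPred_forall]
      exact isClosed_iInter fun t => isClosed_iInter fun _ =>
        (isClosed_eq (continuous_const.fun_mul continuous_id) (continuous_id.fun_mul continuous_const)).inter
          (isClosed_eq (continuous_const.fun_mul continuous_id) (continuous_id.fun_mul continuous_const))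
  have h1 : Cl R ≤ StarSubalgebra.centralizer ℂ R := hle R (by
    rintro _ ⟨a, rfl⟩ _ ⟨b, rfl⟩
    refine ⟨commute_mω κ e hκ he b a, ?_⟩
    rw [← mω_star]
    exact commute_mω κ e hκ he _ a)
  have h2 : Cl R ≤ StarSubalgebra.centralizer ℂ (Cl R : Set (AOmega F stages)) := hle _ (by
    intro z hz t ht
    exact ⟨((StarSubalgebra.mem_centralizer_iff ℂ).1 (h1 ht) z hz).1.symm,
      ((StarSubalgebra.mem_centralizer_iff ℂ).1 (h1 (star_mem ht)) z hz).1.symm⟩)
  exact Subtype.ext (((StarSubalgebra.mem_centralizer_iff ℂ).1 (h2 y.2) x.1 x.2).1)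

/-- Every character of the algebra of means gives a state of `B`. -/
theorem isState_character (ζ : MeanAlg κ e →⋆ₐ[ℂ] ℂ) :
    IsState (ζ.toAlgHom.toLinearMap.comp (toAlg (κ := κ) (e := e))) := by
  refine ⟨?_, fun b => ?_, fun b => ?_, ?_⟩
  · show ζ (toAlg 1) = 1
    rw [show toAlg (κ := κ) (e := e) 1 = 1 from Subtype.ext (mω_one κ e), map_one]
  · show ζ (toAlg (star b)) = starRingEnd ℂ (ζ (toAlg b))
    rw [show toAlg (κ := κ) (e := e) (star b) = star (toAlg b) from Subtype.ext (mω_star κ e b),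
      map_star]
    rfl
  · show 0 ≤ (ζ (toAlg (star b * b))).re
    obtain ⟨y, hy⟩ := exists_mω_star_mul κ e b
    let _ : PartialOrder (AOmega F stages) := CStarAlgebra.spectralOrder _
    have : StarOrderedRing (AOmega F stages) := CStarAlgebra.spectralOrderedRing _
    have hmem : ζ (toAlg (star b * b)) ∈
        spectrum ℂ ((toAlg (κ := κ) (e := e) (star b * b) : MeanAlg κ e) : AOmega F stages) := by
      rw [← StarSubalgebra.spectrum_eq (hS := isClosed_Cl (Set.range (mω κ e)))]
      exact AlgHom.apply_mem_spectrum ζ _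
    exact (Complex.nonneg_iff.1 (spectrum_nonneg_of_nonneg
      (by rw [show ((toAlg (κ := κ) (e := e) (star b * b) : MeanAlg κ e) : AOmega F stages)
        = star y * y from hy]; exact star_mul_self_nonneg y) hmem)).1
  · refine AddMonoidHomClass.continuous_of_bound _ 1 fun b => ?_
    rw [one_mul]
    exact (NonUnitalStarAlgHom.norm_apply_le ζ (toAlg b)).trans (norm_mω_le κ e b)

end algebra

end Vale.Agent.P095.Equiv.Core
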