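import Vale.Agent.P095.Equiv.Defs
import Vale.Agent.P095.Equiv.Core.Avg
import Vale.Agent.P095.Equiv.Core.Means

/-!
# P095: the fixed elements built from means, and their values under a character
-/

namespace Vale.Agent.P095.Equiv.Core

open Filter Topology BoundedContinuousFunction Vale.Agent.P101.KR
open scoped CStarAlgebra

noncomputable section

variable {G : Type} [Group G] [Fintype G] {F : Type} [CStarAlgebra F]

omit [Fintype G] [Group G] in
theorem mem_fixed {β : G → F →⋆ₐ[ℂ] F} {x : F} : x ∈ fixed β ↔ ∀ g, β g x = x := by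
  rw [fixed, StarSubalgebra.mem_iInf]
  rfl

omit [Fintype G] [Group G] in
theorem isClosed_fixed (β : G → F →⋆ₐ[ℂ] F) : IsClosed (fixed β : Set F) := by
  have e : (fixed β : Set F) = ⋂ g, {x | β g x = x} := by
    ext x
    simp [mem_fixed]
  rw [e]
  exact isClosed_iInter fun g => isClosed_eq (AddMonoidHomClass.continuous_of_bound (β g) 1
    fun y => by simpa using NonUnitalStarAlgHom.norm_apply_le (β g) y) continuous_id

/-- A character of the fixed algebra, on all of `F`. -/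
def ext0 (β : G → F →⋆ₐ[ℂ] F) (χ : fixed β →⋆ₐ[ℂ] ℂ) (x : F) : ℂ :=
  open Classical in if h : x ∈ fixed β then χ ⟨x, h⟩ else 0

variable {β : G → F →⋆ₐ[ℂ] F} (χ : fixed β →⋆ₐ[ℂ] ℂ)

omit [Fintype G] [Group G] in
theorem ext0_eq {x : F} (h : x ∈ fixed β) : ext0 β χ x = χ ⟨x, h⟩ := dif_pos h

omit [Fintype G] [Group G] in
theorem ext0_mul {x y : F} (hx : x ∈ fixed β) (hy : y ∈ fixed β) :
    ext0 β χ (x * y) = ext0 β χ x * ext0 β χ y := by
  rw [ext0_eq χ hx, ext0_eq χ hy, ext0_eq χ (mul_mem hx hy), ← map_mul]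
  rfl

omit [Fintype G] [Group G] in
theorem ext0_sub {x y : F} (hx : x ∈ fixed β) (hy : y ∈ fixed β) :
    ext0 β χ (x - y) = ext0 β χ x - ext0 β χ y := by
  rw [ext0_eq χ hx, ext0_eq χ hy, ext0_eq χ (sub_mem hx hy), ← map_sub]
  rfl

omit [Fintype G] [Group G] in
theorem ext0_smul (c : ℂ) {x : F} (hx : x ∈ fixed β) :
    ext0 β χ (c • x) = c * ext0 β χ x := by
  rw [ext0_eq χ hx, ext0_eq χ (SMulMemClass.smul_mem c hx), ← smul_eq_mul, ← map_smul]
  rfl

omit [Fintype G] [Group G] in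
theorem ext0_sum {ι : Type} (s : Finset ι) {f : ι → F} (h : ∀ i ∈ s, f i ∈ fixed β) :
    ext0 β χ (∑ i ∈ s, f i) = ∑ i ∈ s, ext0 β χ (f i) := by
  classical
  induction s using Finset.induction_on with
  | empty =>
    rw [Finset.sum_empty, Finset.sum_empty, ext0_eq χ (zero_mem _)]
    exact map_zero χ
  | insert i s hi ih =>
    have hs : ∀ j ∈ s, f j ∈ fixed β := fun j hj => h j (Finset.mem_insert_of_mem hj)
    have hi' : f i ∈ fixed β := h i (Finset.mem_insert_self _ _)
    rw [Finset.sum_insert hi, Finset.sum_insert hi, ext0_eq χ (add_mem hi' (sum_mem hs)), ← ih hs,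
      ext0_eq χ hi', ext0_eq χ (sum_mem hs), ← map_add]
    rfl

omit [Fintype G] [Group G] in
theorem norm_ext0_le {x : F} (hx : x ∈ fixed β) : ‖ext0 β χ x‖ ≤ ‖x‖ := by
  have : IsClosed (fixed β : Set F) := isClosed_fixed β
  rw [ext0_eq χ hx]
  exact NonUnitalStarAlgHom.norm_apply_le χ ⟨x, hx⟩

/-- The data: copies of `B` compatible with the action. -/
structure Data (β : G → F →⋆ₐ[ℂ] F) (B : Type) [CStarAlgebra B] where
  bb : G → B →⋆ₐ[ℂ] B
  bb_mul : ∀ g h x, bb (g * h) x = bb g (bb h x)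
  κ : ℕ → (B →⋆ₐ[ℂ] F)
  comm : ∀ i j, i ≠ j → ∀ a b, Commute (κ i a) (κ j b)
  equiv : ∀ i g x, β g (κ i x) = κ i (bb g x)

variable {B : Type} [CStarAlgebra B] (D : Data β B) (a : B)

/-- The sum over the orbit of the products over a set of positions. -/
def wordSum (A : Finset ℕ) : F := ∑ g, W D.κ D.comm A (D.bb g a)

theorem wordSum_mem (A : Finset ℕ) : wordSum D a A ∈ fixed β := by
  rw [mem_fixed]
  intro h
  rw [wordSum, map_sum]
  refine Fintype.sum_equiv (Equiv.mulLeft h) _ _ fun g => ?_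
  refine map_W D.κ D.comm (β h) D.κ D.comm A _ _ fun k => ?_
  rw [D.equiv, ← D.bb_mul]
  rfl

omit [Fintype G] in
theorem norm_bb_le (g : G) (x : B) : ‖D.bb g x‖ ≤ ‖x‖ := NonUnitalStarAlgHom.norm_apply_le _ _

theorem norm_wordSum_le [Nontrivial F] (A : Finset ℕ) :
    ‖wordSum D a A‖ ≤ Fintype.card G * ‖a‖ ^ A.card := by
  refine (norm_sum_le _ _).trans ((Finset.sum_le_card_nsmul _ _ (‖a‖ ^ A.card) fun g _ => ?_).trans ?_)
  · exact (norm_W_le _ _ A _).trans (pow_le_pow_left₀ (norm_nonneg _) (norm_bb_le D g a) _)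
  · simp

/-- The orbit sum of the products along a tuple. -/
def tupleSum {r : ℕ} (p : Fin r → ℕ) : F := ∑ g, (List.ofFn fun l => D.κ (p l) (D.bb g a)).prod

/-- The orbit double sum of the products along a tuple. -/
def tupleSum2 {r : ℕ} (p : Fin r → ℕ) : F :=
  ∑ q : G × G, (List.ofFn fun l => D.κ (p l) (D.bb q.1 a * D.bb q.2 a)).prod

theorem tupleSum_mem {r : ℕ} (p : Fin r → ℕ) : tupleSum D a p ∈ fixed β := by
  rw [mem_fixed]
  intro h
  rw [tupleSum, map_sum]
  refine Fintype.sum_equiv (Equiv.mulLeft h) _ _ fun g => ?_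
  rw [map_list_prod, List.map_ofFn]
  congr 1
  refine congrArg List.ofFn (funext fun l => ?_)
  rw [Function.comp_apply, D.equiv, ← D.bb_mul]
  rfl

theorem tupleSum2_mem {r : ℕ} (p : Fin r → ℕ) : tupleSum2 D a p ∈ fixed β := by
  rw [mem_fixed]
  intro h
  rw [tupleSum2, map_sum]
  refine Fintype.sum_equiv ((Equiv.mulLeft h).prodCongr (Equiv.mulLeft h)) _ _ fun q => ?_
  rw [map_list_prod, List.map_ofFn]
  congr 1
  refine congrArg List.ofFn (funext fun l => ?_)
  rw [Function.comp_apply, D.equiv, map_mul, ← D.bb_mul, ← D.bb_mul]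
  rfl

theorem norm_tupleSum_le [Nontrivial F] {r : ℕ} (p : Fin r → ℕ) :
    ‖tupleSum D a p‖ ≤ Fintype.card G * ‖a‖ ^ r := by
  refine (norm_sum_le _ _).trans ((Finset.sum_le_card_nsmul _ _ (‖a‖ ^ r) fun g _ => ?_).trans ?_)
  · exact (norm_prod_ofFn_le _ p _).trans (pow_le_pow_left₀ (norm_nonneg _) (norm_bb_le D g a) _)
  · simp

theorem norm_tupleSum2_le [Nontrivial F] {r : ℕ} (p : Fin r → ℕ) :
    ‖tupleSum2 D a p‖ ≤ (Fintype.card G * ‖a‖ ^ r) ^ 2 := by
  refine (norm_sum_le _ _).trans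
    ((Finset.sum_le_card_nsmul _ _ ((‖a‖ * ‖a‖) ^ r) fun q _ => ?_).trans ?_)
  · refine (norm_prod_ofFn_le _ p _).trans (pow_le_pow_left₀ (norm_nonneg _) ?_ _)
    exact (norm_mul_le _ _).trans
      (mul_le_mul (norm_bb_le D _ a) (norm_bb_le D _ a) (norm_nonneg _) (norm_nonneg _))
  · rw [Finset.card_univ, Fintype.card_prod, nsmul_eq_mul]
    push_cast
    exact le_of_eq (by ring)

theorem tupleSum_of_injective {r : ℕ} (p : Fin r → ℕ) (hp : Function.Injective p) :
    tupleSum D a p = wordSum D a (Finset.univ.image p) :=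
  Finset.sum_congr rfl fun _ _ => prod_ofFn_eq_W D.κ D.comm p hp _

theorem tupleSum2_of_injective {r : ℕ} (p : Fin r → ℕ) (hp : Function.Injective p) :
    tupleSum2 D a p = wordSum D a (Finset.univ.image p) * wordSum D a (Finset.univ.image p) := by
  rw [wordSum, Finset.sum_mul_sum, ← Finset.sum_product', Finset.univ_product_univ, tupleSum2]
  refine Finset.sum_congr rfl fun q _ => ?_
  rw [prod_ofFn_eq_W D.κ D.comm p hp, ← W_mul]

variable (e : (K : ℕ) → Fin (K + 1) → ℕ)

omit [Fintype G] in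
theorem mean_pow (K r : ℕ) (b : B) :
    mean D.κ e K b ^ r = ((((K + 1 : ℕ) : ℂ)⁻¹) ^ r) •
      ∑ f : Fin r → Fin (K + 1), (List.ofFn fun l => D.κ (e K (f l)) b).prod := by
  rw [mean_apply, smul_pow, pow_sum_eq]

/-- The sum over the orbit of powers of means. -/
def powSum (K r : ℕ) : F := ∑ g, mean D.κ e K (D.bb g a) ^ r

/-- The double orbit sum of powers of means. -/
def powSum2 (K r : ℕ) : F := ∑ q : G × G, mean D.κ e K (D.bb q.1 a * D.bb q.2 a) ^ r

theorem powSum_eq (K r : ℕ) :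
    powSum D a e K r = ((((K + 1 : ℕ) : ℂ)⁻¹) ^ r) •
      ∑ f : Fin r → Fin (K + 1), tupleSum D a (fun l => e K (f l)) := by
  simp only [powSum, tupleSum, mean_pow, ← Finset.smul_sum]
  rw [Finset.sum_comm]

theorem powSum2_eq (K r : ℕ) :
    powSum2 D a e K r = ((((K + 1 : ℕ) : ℂ)⁻¹) ^ r) •
      ∑ f : Fin r → Fin (K + 1), tupleSum2 D a (fun l => e K (f l)) := by
  simp only [powSum2, tupleSum2, mean_pow, ← Finset.smul_sum]
  rw [Finset.sum_comm]

theorem powSum_mem (K r : ℕ) : powSum D a e K r ∈ fixed β := by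
  rw [powSum_eq]
  exact SMulMemClass.smul_mem _ (sum_mem fun f _ => tupleSum_mem D a _)

theorem powSum2_mem (K r : ℕ) : powSum2 D a e K r ∈ fixed β := by
  rw [powSum2_eq]
  exact SMulMemClass.smul_mem _ (sum_mem fun f _ => tupleSum2_mem D a _)

/-- On nearly homogeneous positions the variance element has a small value. -/
theorem norm_ext0_var_le [Nontrivial F] {K r : ℕ} (hr : r ≤ K + 1)
    (he : Function.Injective (e K)) (L : ℂ) {δ : ℝ} (hδ : 0 ≤ δ) (hδ1 : δ ≤ 1)
    (hhom : ∀ f : Fin r → Fin (K + 1), Function.Injective f →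
      ‖ext0 β χ (wordSum D a (Finset.univ.image fun l => e K (f l))) - L‖ ≤ δ) :
    ‖ext0 β χ (powSum2 D a e K r - powSum D a e K r * powSum D a e K r)‖ ≤
      30 * (Fintype.card G * ‖a‖ ^ r + 1) ^ 2 * (δ + nonInj K r) := by
  set C := (Fintype.card G : ℝ) * ‖a‖ ^ r + 1
  have hC : 1 ≤ C := le_add_of_nonneg_left (by positivity)
  have hN := nonInj_nonneg K r
  have hu : ∀ f : Fin r → Fin (K + 1), ‖ext0 β χ (tupleSum D a fun l => e K (f l))‖ ≤ C :=
    fun f => (norm_ext0_le χ (tupleSum_mem D a _)).trans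
      ((norm_tupleSum_le D a _).trans (le_add_of_nonneg_right zero_le_one))
  have heq : ∀ f : Fin r → Fin (K + 1), Function.Injective f →
      ‖ext0 β χ (tupleSum D a fun l => e K (f l)) - L‖ ≤ δ := fun f hf => by
    rw [tupleSum_of_injective D a (fun l => e K (f l)) (he.comp hf)]
    exact hhom f hf
  have hL : ‖L‖ ≤ 2 * C := by
    have h1 := heq (Fin.castLE hr) (Fin.castLE_injective hr)
    have h2 := norm_le_norm_add_norm_sub' L (ext0 β χ (tupleSum D a fun l => e K (Fin.castLE hr l)))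
    rw [norm_sub_rev] at h2
    linarith [hu (Fin.castLE hr)]
  have h1 : ‖ext0 β χ (powSum D a e K r) - L‖ ≤ δ + 3 * C * nonInj K r := by
    rw [powSum_eq, ext0_smul χ _ (sum_mem fun f _ => tupleSum_mem D a _),
      ext0_sum χ _ fun f _ => tupleSum_mem D a _]
    refine norm_avg_sub_le _ L hδ (by linarith) (fun f => ?_) heq
    exact (norm_sub_le _ _).trans (by linarith [hu f])
  have h2 : ‖ext0 β χ (powSum2 D a e K r) - L * L‖ ≤ 3 * C * δ + 5 * C ^ 2 * nonInj K r := by
    rw [powSum2_eq, ext0_smul χ _ (sum_mem fun f _ => tupleSum2_mem D a _),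
      ext0_sum χ _ fun f _ => tupleSum2_mem D a _]
    refine norm_avg_sub_le _ (L * L) (by positivity) (by positivity) (fun f => ?_) (fun f hf => ?_)
    · refine (norm_sub_le _ _).trans ?_
      have h3 := (norm_ext0_le χ (tupleSum2_mem D a fun l => e K (f l))).trans
        (norm_tupleSum2_le D a _)
      have h4 : ((Fintype.card G : ℝ) * ‖a‖ ^ r) ^ 2 ≤ C ^ 2 :=
        pow_le_pow_left₀ (by positivity) (le_add_of_nonneg_right zero_le_one) 2
      rw [norm_mul]
      nlinarith [norm_nonneg L]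
    · have hi := he.comp hf
      rw [tupleSum2_of_injective D a (fun l => e K (f l)) hi,
        ext0_mul χ (wordSum_mem D a _) (wordSum_mem D a _)]
      set u := ext0 β χ (wordSum D a (Finset.univ.image fun l => e K (f l)))
      have hd : ‖u - L‖ ≤ δ := hhom f hf
      rw [show u * u - L * L = (u - L) * (u + L) by ring, norm_mul]
      have hs : ‖u + L‖ ≤ 3 * C := by
        refine (norm_add_le _ _).trans ?_
        have := hu f
        rw [tupleSum_of_injective D a (fun l => e K (f l)) hi] at this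
        linarith
      exact (mul_le_mul hd hs (norm_nonneg _) hδ).trans (le_of_eq (by ring))
  rw [ext0_sub χ (powSum2_mem D a e K r) (mul_mem (powSum_mem D a e K r) (powSum_mem D a e K r)),
    ext0_mul χ (powSum_mem D a e K r) (powSum_mem D a e K r)]
  set Y := ext0 β χ (powSum2 D a e K r)
  set X := ext0 β χ (powSum D a e K r)
  have hX : ‖X‖ ≤ 2 * C + δ + 3 * C * nonInj K r := by
    linarith [norm_le_norm_add_norm_sub' X L, norm_sub_rev L X]
  rw [show Y - X * X = (Y - L * L) - (X - L) * (X + L) by ring]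
  refine (norm_sub_le _ _).trans ?_
  rw [norm_mul]
  have h5 : ‖X + L‖ ≤ 2 * (2 * C) + δ + 3 * C * nonInj K r :=
    (norm_add_le _ _).trans (by linarith)
  have h6 : nonInj K r ≤ 1 := sub_le_self _ (by positivity)
  have h8 : ‖X + L‖ ≤ 8 * C := by nlinarith
  have h7 := mul_le_mul h1 h8 (norm_nonneg _) (by positivity)
  have hC2 : C ≤ C ^ 2 := by nlinarith
  nlinarith [mul_le_mul_of_nonneg_left hC2 hδ]

end

end Vale.Agent.P095.Equiv.Core
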