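import Vale.Agent.P101.KR.Interfaces

/-!
# P095: products over sets of commuting copies, and powers of means
-/

namespace Vale.Agent.P095.Equiv.Core

open scoped CStarAlgebra

variable {B F : Type} [CStarAlgebra B] [CStarAlgebra F] (κ : ℕ → (B →⋆ₐ[ℂ] F))
  (hκ : ∀ i j, i ≠ j → ∀ a b, Commute (κ i a) (κ j b))

/-- The product of the copies of `b` over a set of positions. -/
noncomputable def W (A : Finset ℕ) (b : B) : F :=
  A.noncommProd (fun k => κ k b) fun i _ j _ hij => hκ i j hij b b

theorem W_empty (b : B) : W κ hκ ∅ b = 1 := Finset.noncommProd_empty _ _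

theorem W_insert {k : ℕ} {A : Finset ℕ} (h : k ∉ A) (b : B) :
    W κ hκ (insert k A) b = κ k b * W κ hκ A b :=
  Finset.noncommProd_insert_of_notMem _ _ _ _ h

theorem commute_W {k : ℕ} {A : Finset ℕ} (h : k ∉ A) (a b : B) :
    Commute (κ k a) (W κ hκ A b) := by
  induction A using Finset.induction_on with
  | empty => rw [W_empty]; exact Commute.one_right _
  | insert j A hj ih =>
    rw [W_insert κ hκ hj]
    rw [Finset.mem_insert, not_or] at h
    exact (hκ k j h.1 a b).mul_right (ih h.2)

theorem W_mul (A : Finset ℕ) (a b : B) : W κ hκ A a * W κ hκ A b = W κ hκ A (a * b) := by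
  induction A using Finset.induction_on with
  | empty => simp [W_empty]
  | insert k A h ih =>
    rw [W_insert κ hκ h, W_insert κ hκ h, W_insert κ hκ h, map_mul, ← ih]
    calc κ k a * W κ hκ A a * (κ k b * W κ hκ A b)
        = κ k a * (W κ hκ A a * κ k b) * W κ hκ A b := by noncomm_ring
      _ = κ k a * (κ k b * W κ hκ A a) * W κ hκ A b := by rw [(commute_W κ hκ h b a).eq]
      _ = _ := by noncomm_ring

theorem star_W (A : Finset ℕ) (a : B) : star (W κ hκ A a) = W κ hκ A (star a) := by
  induction A using Finset.induction_on with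
  | empty => simp [W_empty]
  | insert k A h ih =>
    rw [W_insert κ hκ h, W_insert κ hκ h, star_mul, ih, ← map_star]
    exact (commute_W κ hκ h _ _).symm.eq

theorem norm_W_le [Nontrivial F] (A : Finset ℕ) (a : B) : ‖W κ hκ A a‖ ≤ ‖a‖ ^ A.card := by
  induction A using Finset.induction_on with
  | empty => simp [W_empty]
  | insert k A h ih =>
    rw [W_insert κ hκ h, Finset.card_insert_of_notMem h, pow_succ']
    exact (norm_mul_le _ _).trans
      (mul_le_mul (NonUnitalStarAlgHom.norm_apply_le _ _) ih (norm_nonneg _) (norm_nonneg _))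

theorem map_W {B' : Type} [CStarAlgebra B'] (f : F →⋆ₐ[ℂ] F) (κ' : ℕ → (B' →⋆ₐ[ℂ] F))
    (hκ' : ∀ i j, i ≠ j → ∀ a b, Commute (κ' i a) (κ' j b)) (A : Finset ℕ) (a : B) (b : B')
    (h : ∀ k, f (κ k a) = κ' k b) : f (W κ hκ A a) = W κ' hκ' A b := by
  induction A using Finset.induction_on with
  | empty => simp [W_empty]
  | insert k A hk ih => rw [W_insert κ hκ hk, W_insert κ' hκ' hk, map_mul, ih, h]

/-- The product along an injective tuple. -/
theorem prod_ofFn_eq_W {r : ℕ} (f : Fin r → ℕ) (hf : Function.Injective f) (b : B) :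
    (List.ofFn fun l => κ (f l) b).prod = W κ hκ (Finset.univ.image f) b := by
  induction r with
  | zero => simp [W_empty]
  | succ r ih =>
    have hne : f 0 ∉ Finset.univ.image (f ∘ Fin.succ) := by
      simp only [Finset.mem_image, Finset.mem_univ, true_and, Function.comp_apply, not_exists]
      exact fun l hl => Fin.succ_ne_zero l (hf hl)
    have hu : Finset.univ.image f = insert (f 0) (Finset.univ.image (f ∘ Fin.succ)) := by
      rw [Fin.univ_succ, Finset.cons_eq_insert, Finset.image_insert, Finset.map_eq_image,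
        Finset.image_image]
      rfl
    rw [List.ofFn_succ, List.prod_cons, hu, W_insert κ hκ hne,
      ← ih (f ∘ Fin.succ) (hf.comp (Fin.succ_injective r))]
    rfl

theorem pow_sum_eq {R K : Type} [Semiring R] [Fintype K] (y : K → R) (r : ℕ) :
    (∑ k, y k) ^ r = ∑ f : Fin r → K, (List.ofFn fun l => y (f l)).prod := by
  induction r with
  | zero => simp
  | succ r ih =>
    rw [pow_succ', ih, Finset.sum_mul_sum, ← Finset.sum_product', Finset.univ_product_univ]
    refine Fintype.sum_equiv (Fin.consEquiv fun _ => K) _ _ fun p => ?_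
    rw [List.ofFn_succ, List.prod_cons]
    simp [Fin.consEquiv]

theorem norm_prod_ofFn_le [Nontrivial F] {r : ℕ} (f : Fin r → ℕ) (b : B) :
    ‖(List.ofFn fun l => κ (f l) b).prod‖ ≤ ‖b‖ ^ r := by
  induction r with
  | zero => simp
  | succ r ih =>
    rw [List.ofFn_succ, List.prod_cons, pow_succ']
    exact (norm_mul_le _ _).trans (mul_le_mul (NonUnitalStarAlgHom.norm_apply_le _ _)
      (ih fun l => f l.succ) (norm_nonneg _) (norm_nonneg _))

end Vale.Agent.P095.Equiv.Core
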